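import Vale.Agent.P123.FinDim
import Vale.Agent.P123.Reduce
import Vale.Agent.P123.Sharp

/-!
# P123: Crouzeix's conjecture

The least constant `C` such that `‖P(A)‖ ≤ C sup_{W(A)} |P|` for every nonzero complex Hilbert
space, every bounded operator `A` on it and every polynomial `P` is `2`. Here
`W(A) = {⟪x, A x⟫ : ‖x‖ = 1}` (Mathlib's inner product is linear in the second argument).
-/

open Polynomial
open scoped InnerProductSpace

universe u

namespace Vale.Agent.Results.P123.Crouzeix

theorem result :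
    IsLeast {C : ℝ | ∀ (H : Type u) [NormedAddCommGroup H] [InnerProductSpace ℂ H]
      [CompleteSpace H] [Nontrivial H] (A : H →L[ℂ] H) (P : ℂ[X]),
      ‖aeval A P‖ ≤
        C * sSup ((fun z : ℂ => ‖P.eval z‖) '' {z : ℂ | ∃ x : H, ‖x‖ = 1 ∧ ⟪x, A x⟫_ℂ = z})} 2 := by
  refine ⟨?_, ?_⟩
  · intro H _ _ _ _ A P
    exact Vale.Agent.P123.bound_of_finDim A P
      (fun V _ _ B => Vale.Agent.P123.fin_dim_bound B P)
  · intro C hC
    exact Vale.Agent.P123.two_le hC

end Vale.Agent.Results.P123.Crouzeix
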